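import Vale.Agent.P249.IsoIterate

namespace Vale.Agent.Results.P249.AllDistortions

open MeasureTheory Real Vale.Agent.P249

/-- For every `p > 1`, every distortion `D > 1` and every `ε > 0`, dimension `C n ^ ε` suffices for
`n` points of any `L_p`; in particular dimension `o(n)` suffices. -/
theorem result :
    (∀ p : ℝ, 1 < p → ∀ D : ℝ, 1 < D → ∀ ε : ℝ, 0 < ε → ∃ C : ℝ,
      ∀ n : ℕ, 2 ≤ n → ∃ N : ℕ, (N : ℝ) ≤ C * (n : ℝ) ^ ε ∧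
      ∀ (Ω : Type) (mΩ : MeasurableSpace Ω) (μ : @Measure Ω mΩ)
        (x : Fin n → Lp ℝ (ENNReal.ofReal p) μ), Function.Injective x →
        ∃ F : Fin n → Fin N → ℝ, ∃ s : ℝ, 0 < s ∧ ∀ i j,
          s * ‖x i - x j‖ ≤ (∑ k, |F i k - F j k| ^ p) ^ (1 / p) ∧
          (∑ k, |F i k - F j k| ^ p) ^ (1 / p) ≤ D * (s * ‖x i - x j‖)) ∧
    (∀ p : ℝ, 1 < p → ∀ D : ℝ, 1 < D → ∀ η : ℝ, 0 < η → ∃ n₀ : ℕ, ∀ n : ℕ, n₀ ≤ n →
      ∃ N : ℕ, (N : ℝ) ≤ η * n ∧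
      ∀ (Ω : Type) (mΩ : MeasurableSpace Ω) (μ : @Measure Ω mΩ)
        (x : Fin n → Lp ℝ (ENNReal.ofReal p) μ), Function.Injective x →
        ∃ F : Fin n → Fin N → ℝ, ∃ s : ℝ, 0 < s ∧ ∀ i j,
          s * ‖x i - x j‖ ≤ (∑ k, |F i k - F j k| ^ p) ^ (1 / p) ∧
          (∑ k, |F i k - F j k| ^ p) ^ (1 / p) ≤ D * (s * ‖x i - x j‖)) := by
  have main : ∀ p : ℝ, 1 < p → ∀ D : ℝ, 1 < D → ∀ ε : ℝ, 0 < ε → ∃ C : ℝ,
      ∀ n : ℕ, 2 ≤ n → ∃ N : ℕ, (N : ℝ) ≤ C * (n : ℝ) ^ ε ∧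
      ∀ (Ω : Type) (mΩ : MeasurableSpace Ω) (μ : @Measure Ω mΩ)
        (x : Fin n → Lp ℝ (ENNReal.ofReal p) μ), Function.Injective x →
        ∃ F : Fin n → Fin N → ℝ, ∃ s : ℝ, 0 < s ∧ ∀ i j,
          s * ‖x i - x j‖ ≤ (∑ k, |F i k - F j k| ^ p) ^ (1 / p) ∧
          (∑ k, |F i k - F j k| ^ p) ^ (1 / p) ≤ D * (s * ‖x i - x j‖) := by
    intro p hp D hD ε hε
    have : Fact (1 ≤ ENNReal.ofReal p) := ⟨ENNReal.one_le_ofReal.mpr hp.le⟩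
    exact Iso.red_all hp hD hε
  refine ⟨main, fun p hp D hD η hη => ?_⟩
  obtain ⟨C, h⟩ := main p hp D hD (1 / 2) (by norm_num)
  have ht : Filter.Tendsto (fun n : ℕ => C * ((n : ℝ) ^ (-(1 / 2) : ℝ))) Filter.atTop (nhds 0) := by
    simpa using ((tendsto_rpow_neg_atTop (show (0 : ℝ) < 1 / 2 by norm_num)).comp
      tendsto_natCast_atTop_atTop).const_mul C
  obtain ⟨n₁, hn₁⟩ := Filter.eventually_atTop.1 (ht.eventually (eventually_le_nhds hη))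
  refine ⟨max n₁ 2, fun n hn => ?_⟩
  obtain ⟨N, hN, hF⟩ := h n ((le_max_right _ _).trans hn)
  refine ⟨N, hN.trans ?_, hF⟩
  have hn0 : (0 : ℝ) < n := by exact_mod_cast (show 0 < n by omega)
  calc C * (n : ℝ) ^ (1 / 2 : ℝ) = C * (n : ℝ) ^ (-(1 / 2) : ℝ) * n := by
        rw [mul_assoc, ← rpow_add_one hn0.ne']; norm_num
    _ ≤ η * n := mul_le_mul_of_nonneg_right (hn₁ n ((le_max_left _ _).trans hn)) hn0.le

end Vale.Agent.Results.P249.AllDistortions
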