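import Vale.Agent.P249.NearLinear
import Vale.Agent.P249.Feature

namespace Vale.Agent.Results.P249.JLBoundedAspect

open MeasureTheory Real Vale.Agent.P249

/-- For `1 ≤ p < 2` and `D > 1`, `n` points of any `L_p` whose ratio of largest to smallest
distance is at most `A` embed into `ℓ_p^N` with distortion `D`, where `N ≤ C A^k log n`. -/
theorem result : ∀ p : ℝ, 1 ≤ p → p < 2 → ∀ D : ℝ, 1 < D → ∃ C : ℝ, ∃ k : ℕ, ∀ n : ℕ, 2 ≤ n →
    ∀ A : ℝ, 1 ≤ A → ∃ N : ℕ, (N : ℝ) ≤ C * A ^ k * Real.log n ∧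
      ∀ (Ω : Type) (mΩ : MeasurableSpace Ω) (μ : @Measure Ω mΩ)
        (x : Fin n → Lp ℝ (ENNReal.ofReal p) μ), Function.Injective x →
        (∀ i j i' j', i' ≠ j' → ‖x i - x j‖ ≤ A * ‖x i' - x j'‖) →
        ∃ F : Fin n → Fin N → ℝ, ∃ c : ℝ, 0 < c ∧ ∀ i j,
          c * ‖x i - x j‖ ≤ (∑ k, |F i k - F j k| ^ p) ^ (1 / p) ∧
          (∑ k, |F i k - F j k| ^ p) ^ (1 / p) ≤ D * c * ‖x i - x j‖ := by
  intro p hp1 hp2 D hD
  have hp : 0 < p := by linarith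
  set D₁ := D ^ (1 / 2 : ℝ) with hD₁
  have hD1 : 1 < D₁ := one_lt_rpow hD (by norm_num)
  have hD₁sq : D₁ * D₁ = D := by
    rw [hD₁, ← rpow_add (by linarith)]; norm_num
  obtain ⟨C₁, hC₁⟩ := Vale.Agent.P249.NearLinear.near_linear p hp1 D₁ hD1
  obtain ⟨C, k, hC⟩ := exists_lowdim hp1 hp2 (one_lt_rpow hD1 hp)
  refine ⟨C * D₁ ^ (2 * k), 4 * k, fun n hn A hA => ?_⟩
  set R := D₁ ^ 2 * A ^ 4 with hR
  have hR1 : 1 ≤ R :=
    one_le_mul_of_one_le_of_one_le (one_le_pow₀ hD1.le) (one_le_pow₀ hA)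
  obtain ⟨N, hN, hF⟩ := hC n hn R hR1
  refine ⟨N, ?_, ?_⟩
  · refine hN.trans (le_of_eq ?_)
    rw [hR, mul_pow, ← pow_mul, ← pow_mul]; ring
  intro Ω mΩ μ x hx hA'
  obtain ⟨M, -, hM⟩ := hC₁ n hn
  obtain ⟨G, c₁, hc₁, hG⟩ := hM Ω mΩ μ x hx
  have : Fact (1 ≤ ENNReal.ofReal p) := ⟨ENNReal.one_le_ofReal.mpr hp1⟩
  have hpos : ∀ i j, i ≠ j → 0 < ‖x i - x j‖ := fun i j hij =>
    norm_pos_iff.mpr (sub_ne_zero.mpr (hx.ne hij))
  set a : Fin n := ⟨0, by omega⟩ with ha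
  set b : Fin n := ⟨1, by omega⟩ with hb
  have hab : a ≠ b := by simp [ha, hb, Fin.ext_iff]
  set e := ‖x a - x b‖ with he
  have he0 : 0 < e := hpos a b hab
  set s := A / (c₁ * e) with hs
  have hs0 : 0 < s := div_pos (by linarith) (mul_pos hc₁ he0)
  set y : Fin n → Fin M → ℝ := fun i l => s * G i l with hy
  set m : Fin n → Fin n → ℝ := fun i j => ∑ l, |y i l - y j l| ^ p with hm
  have hm0 : ∀ i j, 0 ≤ m i j := fun i j =>
    Finset.sum_nonneg fun l _ => rpow_nonneg (abs_nonneg _) _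
  have hroot : ∀ i j, m i j ^ (1 / p) = s * (∑ l, |G i l - G j l| ^ p) ^ (1 / p) := by
    intro i j
    have : m i j = s ^ p * ∑ l, |G i l - G j l| ^ p := by
      rw [hm, Finset.mul_sum]
      refine Finset.sum_congr rfl fun l _ => ?_
      rw [hy, ← mul_sub, abs_mul, abs_of_pos hs0, mul_rpow hs0.le (abs_nonneg _)]
    rw [this, mul_rpow (by positivity)
      (Finset.sum_nonneg fun l _ => rpow_nonneg (abs_nonneg _) _), ← rpow_mul hs0.le,
      mul_one_div_cancel hp.ne', rpow_one]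
  have hlo : ∀ i j, s * c₁ * ‖x i - x j‖ ≤ m i j ^ (1 / p) := by
    intro i j
    rw [hroot, mul_assoc]
    exact mul_le_mul_of_nonneg_left (hG i j).1 hs0.le
  have hhi : ∀ i j, m i j ^ (1 / p) ≤ D₁ * (s * c₁) * ‖x i - x j‖ := by
    intro i j
    rw [hroot]
    refine le_of_le_of_eq (mul_le_mul_of_nonneg_left (hG i j).2 hs0.le) ?_
    ring
  have hscale : s * c₁ = A / e := by rw [hs]; field_simp
  obtain ⟨F, hF'⟩ := hF M y (fun i j hij => by
    have h1 : 1 ≤ m i j ^ (1 / p) := by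
      refine le_trans ?_ (hlo i j)
      rw [hscale, div_mul_eq_mul_div, le_div_iff₀ he0, one_mul]
      exact hA' a b i j hij
    have h2 : m i j ^ (1 / p) ≤ D₁ * A ^ 2 := by
      refine (hhi i j).trans ?_
      rw [hscale, mul_assoc, mul_le_mul_iff_right₀ (by linarith), div_mul_eq_mul_div,
        div_le_iff₀ he0, sq, mul_assoc]
      exact mul_le_mul_of_nonneg_left (hA' i j a b hab) (by linarith)
    have hmm : (m i j ^ (1 / p)) ^ p = m i j := by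
      rw [← rpow_mul (hm0 i j), one_div_mul_cancel hp.ne', rpow_one]
    change 1 ≤ m i j ∧ m i j ≤ R
    rw [← hmm]
    refine ⟨one_le_rpow h1 hp.le, ?_⟩
    calc (m i j ^ (1 / p)) ^ p ≤ (D₁ * A ^ 2) ^ p :=
          rpow_le_rpow (rpow_nonneg (hm0 i j) _) h2 hp.le
      _ ≤ (D₁ * A ^ 2) ^ (2 : ℝ) := rpow_le_rpow_of_exponent_le
          (one_le_mul_of_one_le_of_one_le hD1.le (one_le_pow₀ hA)) hp2.le
      _ = R := by rw [rpow_two, hR]; ring)
  refine ⟨F, s * c₁, mul_pos hs0 hc₁, fun i j => ?_⟩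
  obtain ⟨f1, f2⟩ := hF' i j
  change m i j ≤ _ at f1
  change _ ≤ D₁ ^ p * m i j at f2
  constructor
  · exact (hlo i j).trans (rpow_le_rpow (hm0 i j) f1 (by positivity))
  · calc (∑ l, |F i l - F j l| ^ p) ^ (1 / p) ≤ (D₁ ^ p * m i j) ^ (1 / p) :=
          rpow_le_rpow (Finset.sum_nonneg fun l _ => rpow_nonneg (abs_nonneg _) _) f2
            (by positivity)
      _ = D₁ * m i j ^ (1 / p) := by
          rw [mul_rpow (by positivity) (hm0 i j), ← rpow_mul (by linarith),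
            mul_one_div_cancel hp.ne', rpow_one]
      _ ≤ D₁ * (D₁ * (s * c₁) * ‖x i - x j‖) := mul_le_mul_of_nonneg_left (hhi i j) (by linarith)
      _ = _ := by rw [← hD₁sq]; ring

end Vale.Agent.Results.P249.JLBoundedAspect
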