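import Vale.Agent.P249.LowerCore

namespace Vale.Agent.Results.P249.LowerLogPower

open Finset Real Vale.Agent.P249

/-- For every `p > 2` some `n`-point sets in `ℓ_p^M` need dimension at least
`c (log n / log log n)^(p/2)` at distortion `D`. -/
theorem result : ∀ p : ℝ, 2 < p → ∀ D : ℝ, 1 ≤ D → ∃ c : ℝ, 0 < c ∧ ∃ n₀ : ℕ, ∀ n : ℕ, n₀ ≤ n →
    ∃ M : ℕ, ∃ x : Fin n → Fin M → ℝ, Function.Injective x ∧
      ∀ (d : ℕ) (F : Fin n → Fin d → ℝ) (s : ℝ), 0 < s →
        (∀ i j, s * (∑ k, |x i k - x j k| ^ p) ^ (1 / p) ≤ (∑ k, |F i k - F j k| ^ p) ^ (1 / p) ∧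
          (∑ k, |F i k - F j k| ^ p) ^ (1 / p) ≤ D * s * (∑ k, |x i k - x j k| ^ p) ^ (1 / p)) →
        c * (Real.log n / Real.log (Real.log n)) ^ (p / 2) ≤ d := by
  intro p hp D hD
  have hp0 : 0 < p := by linarith
  obtain ⟨K, hK⟩ := exists_nat_ge (max (D * kc p ^ (1 / p)) 1)
  have hK1 : 1 ≤ K := by exact_mod_cast (le_max_right _ _).trans hK
  have hKR : (1 : ℝ) ≤ K := by exact_mod_cast hK1
  have hKD : D * kc p ^ (1 / p) ≤ K := (le_max_left _ _).trans hK
  set α := (1 / 3 : ℝ) ^ p / (3 * 24 ^ p * (K : ℝ) ^ p * (kc p + 1)) with hα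
  have hkc := kc_pos p
  have hα0 : 0 < α := by positivity
  set Y := max 4 (Real.log (3 * (300 * (K : ℝ)))) with hY
  refine ⟨α / (8 : ℝ) ^ (p / 2), by positivity, ⌈exp (exp Y)⌉₊, fun n hn => ?_⟩
  have hn' : exp (exp Y) ≤ (n : ℝ) := Nat.ceil_le.mp hn
  have hn0 : (0 : ℝ) < n := lt_of_lt_of_le (exp_pos _) hn'
  set ℓ := Real.log (n : ℝ) with hℓ
  have hℓ1 : exp Y ≤ ℓ := by
    have := Real.log_le_log (exp_pos _) hn'
    rwa [Real.log_exp] at this
  have hℓ0 : 0 < ℓ := lt_of_lt_of_le (exp_pos _) hℓ1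
  set y := Real.log ℓ with hy
  have hyY : Y ≤ y := by
    have := Real.log_le_log (exp_pos _) hℓ1
    rwa [Real.log_exp] at this
  have hy4 : (4 : ℝ) ≤ y := (le_max_left _ _).trans hyY
  have hy3 : Real.log (3 * (300 * (K : ℝ))) ≤ y := (le_max_right _ _).trans hyY
  have h8 : 8 * y ≤ ℓ := by
    have h1 : ℓ = exp 4 * exp (y - 4) := by
      rw [← exp_add, hy]; simp [exp_log hℓ0]
    have h2 := add_one_le_exp (y - 4)
    have h3 : (32 : ℝ) ≤ exp 4 := by
      have h4 : exp (4 : ℝ) = exp 1 ^ 4 := by rw [← exp_nat_mul]; norm_num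
      rw [h4]
      calc (32 : ℝ) ≤ (2.7 : ℝ) ^ 4 := by norm_num
        _ ≤ _ := by gcongr; linarith [exp_one_gt_d9]
    rw [h1]; nlinarith
  set m := ⌊ℓ / (4 * y)⌋₊ with hm
  have hX2 : 2 ≤ ℓ / (4 * y) := by rw [le_div_iff₀ (by positivity)]; linarith
  have hmle : (m : ℝ) ≤ ℓ / (4 * y) := Nat.floor_le (by positivity)
  have hmge : ℓ / (8 * y) ≤ m := by
    have h1 := Nat.lt_floor_add_one (ℓ / (4 * y))
    have h2 : ℓ / (8 * y) = ℓ / (4 * y) / 2 := by ring
    rw [h2]; linarith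
  have hm1 : 1 ≤ m := Nat.le_floor (by push_cast; linarith)
  set L := 300 * K * m ^ 3 with hL
  have hcard : (sbox m L).card ≤ n := by
    rw [card_sbox]
    have hmR : (1 : ℝ) ≤ m := by exact_mod_cast hm1
    have hml : (m : ℝ) ≤ ℓ := hmle.trans (div_le_self hℓ0.le (by linarith))
    have hA0 : (0 : ℝ) < 3 * (300 * (K : ℝ)) := by positivity
    have h1 : ((2 * L + 1 : ℕ) : ℝ) ≤ 3 * (300 * (K : ℝ)) * (m : ℝ) ^ 3 := by
      rw [hL]; push_cast
      have : (1 : ℝ) ≤ (m : ℝ) ^ 3 := one_le_pow₀ hmR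
      nlinarith
    have h2 : Real.log ((2 * L + 1 : ℕ) : ℝ) ≤ 4 * y := by
      refine (Real.log_le_log (by positivity) h1).trans ?_
      rw [Real.log_mul (by positivity) (by positivity), Real.log_pow]
      have := Real.log_le_log (by linarith) hml
      push_cast; linarith
    have h3 : Real.log (((2 * L + 1) ^ m : ℕ) : ℝ) ≤ ℓ := by
      rw [Nat.cast_pow, Real.log_pow]
      calc (m : ℝ) * Real.log ((2 * L + 1 : ℕ) : ℝ) ≤ ℓ / (4 * y) * (4 * y) :=
            mul_le_mul hmle h2 (Real.log_nonneg (by simp)) (by positivity)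
        _ = ℓ := by field_simp
    exact_mod_cast (Real.log_le_log_iff (by positivity) hn0).mp h3
  have : Nonempty (Fin m) := ⟨⟨0, hm1⟩⟩
  obtain ⟨P, hP, hPc⟩ := Infinite.exists_superset_card_eq (sbox m L) n hcard
  set e : Fin n ≃ {v // v ∈ P} := (P.equivFinOfCardEq hPc).symm with he
  set σ := (Fintype.equivFin (Fin m → Bool)).symm with hσ
  refine ⟨Fintype.card (Fin m → Bool), fun i k => emb p (e i).1 (σ k), ?_, ?_⟩
  · intro i j hij
    have h : ∀ b, emb p ((e i).1 - (e j).1) b = 0 := fun b => by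
      have := congrFun hij (σ.symm b)
      simp only [Equiv.apply_symm_apply] at this
      rw [← emb_sub, this, sub_self]
    have h2 := (emb_norm hp.le ((e i).1 - (e j).1)).1
    simp only [h, abs_zero, Real.zero_rpow hp0.ne', Finset.sum_const_zero,
      Real.zero_rpow (show (1 / p : ℝ) ≠ 0 by positivity)] at h2
    have h3 : len ((e i).1 - (e j).1) = 0 := le_antisymm h2 (len_nonneg _)
    rw [len, Real.sqrt_eq_zero (Finset.sum_nonneg fun _ _ => sq_nonneg _),
      Finset.sum_eq_zero_iff_of_nonneg fun _ _ => sq_nonneg _] at h3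
    refine e.injective (Subtype.ext (funext fun l => ?_))
    have := h3 l (Finset.mem_univ l)
    simp at this
    exact_mod_cast sub_eq_zero.mp this
  intro d F s hs hF
  classical
  let G : (Fin m → ℤ) → Fin d → ℝ := fun v k =>
    if h : v ∈ P then F (e.symm ⟨v, h⟩) k / s else 0
  have key : ∀ v ∈ sbox m L, ∀ w ∈ sbox m L,
      len (v - w) ≤ (∑ k, |G v k - G w k| ^ p) ^ (1 / p) ∧
        (∑ k, |G v k - G w k| ^ p) ^ (1 / p) ≤ (K : ℝ) * len (v - w) := by
    intro v hv w hw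
    have hvP := hP hv
    have hwP := hP hw
    obtain ⟨hlo, hhi⟩ := hF (e.symm ⟨v, hvP⟩) (e.symm ⟨w, hwP⟩)
    simp only [Equiv.apply_symm_apply] at hlo hhi
    have hx : ∑ k : Fin (Fintype.card (Fin m → Bool)), |emb p v (σ k) - emb p w (σ k)| ^ p
        = ∑ b, |emb p (v - w) b| ^ p := by
      rw [σ.sum_comp (fun b => |emb p v b - emb p w b| ^ p)]
      simp only [emb_sub]
    rw [hx] at hlo hhi
    obtain ⟨e1, e2⟩ := emb_norm hp.le (v - w)
    have hG : (∑ k, |G v k - G w k| ^ p) ^ (1 / p) =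
        (∑ k, |F (e.symm ⟨v, hvP⟩) k - F (e.symm ⟨w, hwP⟩) k| ^ p) ^ (1 / p) / s := by
      simp only [G, hvP, hwP, ↓reduceDIte, ← sub_div, abs_div, abs_of_pos hs,
        div_rpow (abs_nonneg _) hs.le, ← Finset.sum_div]
      rw [div_rpow (Finset.sum_nonneg fun k _ => rpow_nonneg (abs_nonneg _) p)
        (rpow_nonneg hs.le p), ← rpow_mul hs.le, mul_one_div_cancel hp0.ne', rpow_one]
    rw [hG]
    constructor
    · rw [le_div_iff₀ hs]; nlinarith
    · rw [div_le_iff₀ hs]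
      refine hhi.trans ?_
      calc D * s * (∑ b, |emb p (v - w) b| ^ p) ^ (1 / p)
          ≤ D * s * (kc p ^ (1 / p) * len (v - w)) := by gcongr
        _ = (D * kc p ^ (1 / p)) * len (v - w) * s := by ring
        _ ≤ (K : ℝ) * len (v - w) * s := by gcongr; exact len_nonneg _
  have hpow : ∀ S : ℝ, 0 ≤ S → (S ^ (1 / p)) ^ p = S := fun S hS => by
    rw [← rpow_mul hS, one_div_mul_cancel hp0.ne', rpow_one]
  have hg := grid_lower hp.le K hK1 hm1 d L le_rfl G
    (fun v hv w hw => by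
      have := rpow_le_rpow (len_nonneg _) (key v hv w hw).1 hp0.le
      rwa [hpow _ (by positivity)] at this)
    (fun v hv w hw => by
      have := rpow_le_rpow (by positivity) (key v hv w hw).2 hp0.le
      rwa [hpow _ (by positivity)] at this)
  refine le_trans ?_ hg
  rw [← hα, Real.sqrt_eq_rpow, ← rpow_mul (Nat.cast_nonneg' m),
    show (1 / 2 : ℝ) * p = p / 2 by ring, div_mul_eq_mul_div, mul_div_assoc,
    ← div_rpow (by positivity) (by positivity), div_div, mul_comm y 8]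
  gcongr

end Vale.Agent.Results.P249.LowerLogPower
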